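import Vale.Agent.Lib.P361H29.Final

/-!
Bloch's law for the three-dimensional quantum Heisenberg ferromagnet: the lower bound
`liminf β^{3/2} (S - m_S(β)) ≥ ζ(3/2) / (8 π^{3/2} S^{3/2})` for every spin `S = n/2`.
-/

open Filter Topology
open Vale.Agent.Lib.P361H29

namespace Vale.Agent.Results.P361.SpinWaveBound

/-- The matrices `spin n a` are the spin-`n/2` matrices in the normalization of the problem:
`[S¹,S²] = i S³` and cyclic permutations, and `∑ (S^a)² = S (S + 1)` with `S = n/2`, on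
`ℂ^(n+1)`. (Not used in the statement of `result`.) -/
theorem spin_relations (n : ℕ) :
    (spin n 0 * spin n 1 - spin n 1 * spin n 0 = Complex.I • spin n 2 ∧
      spin n 1 * spin n 2 - spin n 2 * spin n 1 = Complex.I • spin n 0 ∧
      spin n 2 * spin n 0 - spin n 0 * spin n 2 = Complex.I • spin n 1) ∧
    ∑ a, spin n a * spin n a
      = (((n : ℂ) / 2) * ((n : ℂ) / 2 + 1)) • (1 : Matrix (Fin (n + 1)) (Fin (n + 1)) ℂ) :=
  ⟨spin_comm n, spin_casimir n⟩

/-- For every spin `S = n/2 > 0`: the infinite volume pressure exists, its right derivative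
`m_S(β)` at `h = 0` exists, and `liminf_{β → ∞} β^{3/2} (S - m_S(β))` is at least the constant
`ζ(3/2) / (8 π^{3/2} S^{3/2})` of Bloch's law. -/
theorem result (n : ℕ) (hn : 1 ≤ n) :
    (∀ β : ℝ, 0 < β → ∀ h : ℝ,
      Tendsto (fun N : ℕ => graphPressure n (boxAdj N) β h) atTop (𝓝 (pressure n β h))) ∧
    (∀ β : ℝ, 0 < β →
      HasDerivWithinAt (pressure n β) (magnetization n β) (Set.Ioi 0) 0) ∧
    (∀ c : ℝ, c < (riemannZeta (3 / 2)).re /
        (8 * Real.pi ^ (3 / 2 : ℝ) * ((n : ℝ) / 2) ^ (3 / 2 : ℝ)) →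
      ∀ᶠ β : ℝ in atTop, c < β ^ (3 / 2 : ℝ) * ((n : ℝ) / 2 - magnetization n β)) :=
  ⟨fun β hβ h => pressure_tendsto n β h hβ, fun β hβ => magnetization_hasDeriv n β hβ,
    fun c hc => main n hn c hc⟩

end Vale.Agent.Results.P361.SpinWaveBound
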